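import Vale.Agent.P151.Bdl.B1

/-!
# Covariances for product measures on finite sets
-/

set_option autoImplicit false
set_option linter.unusedSectionVars false

open Finset

namespace Vale.Agent.P151.H800

open Vale.Agent.P151

variable {ι : Type*} [DecidableEq ι]

/-- Cauchy-Schwarz for the covariance. -/
lemma cov_sq_le {p : ℝ} (h0 : 0 ≤ p) (h1 : p ≤ 1) (Λ : Finset ι) (X Y : Finset ι → ℝ) :
    (Ex p Λ (fun S => X S * Y S) - Ex p Λ X * Ex p Λ Y) ^ 2 ≤
      (Ex p Λ (fun S => X S ^ 2) - Ex p Λ X ^ 2) * (Ex p Λ (fun S => Y S ^ 2) - Ex p Λ Y ^ 2) := by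
  set a := Ex p Λ X with ha
  set b := Ex p Λ Y with hb
  have key : ∀ t : ℝ, 0 ≤ (Ex p Λ (fun S => X S ^ 2) - a ^ 2) * (t * t) +
      (2 * (Ex p Λ (fun S => X S * Y S) - a * b)) * t + (Ex p Λ (fun S => Y S ^ 2) - b ^ 2) := by
    intro t
    have h2 : 0 ≤ Ex p Λ (fun S => (t * (X S - a) + (Y S - b)) ^ 2) :=
      Ex_nonneg h0 h1 fun S _ => sq_nonneg _
    have e : Ex p Λ (fun S => (t * (X S - a) + (Y S - b)) ^ 2) =
        t ^ 2 * Ex p Λ (fun S => X S ^ 2) + (2 * t * Ex p Λ (fun S => X S * Y S) +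
          (Ex p Λ (fun S => Y S ^ 2) + ((-(2 * t * (t * a + b))) * Ex p Λ X +
          ((-(2 * (t * a + b))) * Ex p Λ Y + (t * a + b) ^ 2)))) := by
      have e1 : Ex p Λ (fun S => (t * (X S - a) + (Y S - b)) ^ 2) =
          Ex p Λ (fun S => t ^ 2 * X S ^ 2 + (2 * t * (X S * Y S) + (Y S ^ 2 +
            ((-(2 * t * (t * a + b))) * X S + ((-(2 * (t * a + b))) * Y S +
              (t * a + b) ^ 2))))) := by
        apply Ex_congr
        intro S _
        ring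
      rw [e1, Ex_add, Ex_const_mul, Ex_add, Ex_const_mul, Ex_add, Ex_add, Ex_const_mul, Ex_add,
        Ex_const_mul, Ex_const]
    rw [e, ← ha, ← hb] at h2
    nlinarith only [h2]
  have h3 := discrim_le_zero key
  unfold discrim at h3
  nlinarith only [h3]

lemma cov_le_sqrt {p : ℝ} (h0 : 0 ≤ p) (h1 : p ≤ 1) (Λ : Finset ι) (X Y : Finset ι → ℝ)
    {vx vy : ℝ} (hx : Ex p Λ (fun S => X S ^ 2) - Ex p Λ X ^ 2 ≤ vx)
    (hy : Ex p Λ (fun S => Y S ^ 2) - Ex p Λ Y ^ 2 ≤ vy) :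
    Ex p Λ (fun S => X S * Y S) - Ex p Λ X * Ex p Λ Y ≤ Real.sqrt vx * Real.sqrt vy := by
  have hvar : ∀ Z : Finset ι → ℝ, 0 ≤ Ex p Λ (fun S => Z S ^ 2) - Ex p Λ Z ^ 2 := by
    intro Z
    have h2 : 0 ≤ Ex p Λ (fun S => (Z S - Ex p Λ Z) ^ 2) := Ex_nonneg h0 h1 fun S _ => sq_nonneg _
    have e : Ex p Λ (fun S => (Z S - Ex p Λ Z) ^ 2) =
        Ex p Λ (fun S => Z S ^ 2) + (-(2 * Ex p Λ Z)) * Ex p Λ Z + Ex p Λ Z ^ 2 := by
      conv_rhs => rw [← Ex_const p Λ (Ex p Λ Z ^ 2), ← Ex_const_mul, ← Ex_add, ← Ex_add]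
      apply Ex_congr
      intro S _
      ring
    rw [e] at h2
    nlinarith only [h2]
  have hvx0 := (hvar X).trans hx
  have h3 := cov_sq_le h0 h1 Λ X Y
  have h4 : (Ex p Λ (fun S => X S * Y S) - Ex p Λ X * Ex p Λ Y) ^ 2 ≤ vx * vy :=
    h3.trans (mul_le_mul hx hy (hvar Y) hvx0)
  rw [← Real.sqrt_mul hvx0]
  exact Real.le_sqrt_of_sq_le h4

open Classical in
lemma Ex_open (p : ℝ) {e : ι} {Λ : Finset ι} (he : e ∈ Λ) (F : Finset ι → ℝ) :
    Ex p Λ (fun S => (if e ∈ S then 1 else 0) * F S) = p * Ex p Λ (fun S => F (insert e S)) := by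
  rw [Ex_indep p he (fun S => F (insert e S)) (fun S => by rw [Finset.insert_idem])]
  conv_lhs => rw [← Finset.insert_erase he]
  rw [Ex_insert p (Finset.notMem_erase e Λ)]
  have h1 : Ex p (Λ.erase e) (fun S => (if e ∈ S then 1 else 0) * F S) = 0 := by
    rw [Ex_congr p (G := fun _ => (0 : ℝ))]
    · simp
    · intro S hS
      rw [if_neg (fun h => Finset.notMem_erase e Λ (hS h)), zero_mul]
  rw [h1, mul_zero, add_zero]
  congr 1
  apply Ex_congr
  intro S _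
  rw [if_pos (Finset.mem_insert_self e S), one_mul]

open Classical in
/-- The number of open elements. -/
noncomputable def NN (Λ : Finset ι) (S : Finset ι) : ℝ := ∑ e ∈ Λ, if e ∈ S then 1 else 0

lemma Ex_NN_mul (p : ℝ) (Λ : Finset ι) (F : Finset ι → ℝ) :
    Ex p Λ (fun S => NN Λ S * F S) = ∑ e ∈ Λ, p * Ex p Λ (fun S => F (insert e S)) := by
  classical
  unfold NN
  simp_rw [Finset.sum_mul]
  rw [Ex_sum]
  apply Finset.sum_congr rfl
  intro e he
  exact Ex_open p he F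

lemma Ex_NN (p : ℝ) (Λ : Finset ι) : Ex p Λ (NN Λ) = p * Λ.card := by
  have h := Ex_NN_mul p Λ (fun _ => 1)
  simp only [mul_one, Ex_const, Finset.sum_const, nsmul_eq_mul] at h
  rw [h]; ring

lemma NN_insert {Λ S : Finset ι} {e : ι} (he : e ∈ Λ) : 
    NN Λ (insert e S) ≤ NN Λ S + 1 := by
  classical
  unfold NN
  have h1 : ∀ f ∈ Λ, (if f ∈ insert e S then (1 : ℝ) else 0) ≤
      (if f ∈ S then 1 else 0) + (if f = e then 1 else 0) := by
    intro f _
    by_cases h2 : f = e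
    · rw [if_pos (Finset.mem_insert.2 (Or.inl h2)), if_pos h2]; split_ifs <;> norm_num
    · by_cases h3 : f ∈ S
      · rw [if_pos (Finset.mem_insert.2 (Or.inr h3)), if_pos h3, if_neg h2]; norm_num
      · rw [if_neg (fun h => (Finset.mem_insert.1 h).elim h2 h3), if_neg h3, if_neg h2]; norm_num
  refine (Finset.sum_le_sum h1).trans ?_
  rw [Finset.sum_add_distrib, Finset.sum_ite_eq' Λ e, if_pos he]

/-- The variance of the number of open elements. -/
lemma var_NN {p : ℝ} (h0 : 0 ≤ p) (h1 : p ≤ 1) (Λ : Finset ι) :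
    Ex p Λ (fun S => NN Λ S ^ 2) - Ex p Λ (NN Λ) ^ 2 ≤ p * Λ.card := by
  have h2 : Ex p Λ (fun S => NN Λ S ^ 2) ≤ Λ.card * (p * (p * Λ.card + 1)) := by
    have e : (fun S => NN Λ S ^ 2) = fun S => NN Λ S * NN Λ S := by
      funext S; ring
    rw [e, Ex_NN_mul]
    have h3 : ∀ e ∈ Λ, p * Ex p Λ (fun S => NN Λ (insert e S)) ≤ p * (p * Λ.card + 1) := by
      intro e he
      apply mul_le_mul_of_nonneg_left _ h0
      have h4 := Ex_mono h0 h1 (Λ := Λ) (F := fun S => NN Λ (insert e S))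
        (G := fun S => NN Λ S + 1) fun S _ => NN_insert he
      rw [Ex_add, Ex_const, Ex_NN] at h4
      exact h4
    refine (Finset.sum_le_sum h3).trans (le_of_eq ?_)
    rw [Finset.sum_const, nsmul_eq_mul]
  rw [Ex_NN]
  nlinarith only [h2]

end Vale.Agent.P151.H800
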