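import Mathlib.Tactic
import Mathlib.Analysis.SpecialFunctions.Exp
import Mathlib.Analysis.SpecialFunctions.Pow.Real
import Mathlib.Analysis.Convex.SpecificFunctions.Basic
import Mathlib.Analysis.Complex.ExponentialBounds

/-!
# Elementary inequalities for the ladder

`dl h s t = s (1-h)^s (1 - (1-h)^t) + t (1-h)^t (1 - (1-h)^s)` is the change of
`∑ x, (1 - (1-h)^|K_x|)` when two distinct clusters of sizes `s`, `t` are joined.
-/

set_option autoImplicit false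

open Finset

namespace Vale.Agent.P151.H800

/-- The change of `∑ x, (1 - (1-h)^|K_x|)` when clusters of sizes `s` and `t` are joined. -/
noncomputable def dl (h : ℝ) (s t : ℕ) : ℝ :=
  s * ((1 - h) ^ s * (1 - (1 - h) ^ t)) + t * ((1 - h) ^ t * (1 - (1 - h) ^ s))

lemma dl_comm (h : ℝ) (s t : ℕ) : dl h s t = dl h t s := by
  unfold dl; ring

lemma pow_le_one' {h : ℝ} (h0 : 0 ≤ h) (h1 : h ≤ 1) (s : ℕ) : (1 - h) ^ s ≤ 1 :=
  pow_le_one₀ (by linarith) (by linarith)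

lemma dl_nonneg {h : ℝ} (h0 : 0 ≤ h) (h1 : h ≤ 1) (s t : ℕ) : 0 ≤ dl h s t := by
  unfold dl
  have e1 := pow_le_one' h0 h1 s
  have e2 := pow_le_one' h0 h1 t
  have e3 : 0 ≤ (1 - h) ^ s := pow_nonneg (by linarith) _
  have e4 : 0 ≤ (1 - h) ^ t := pow_nonneg (by linarith) _
  have := mul_nonneg (Nat.cast_nonneg (α := ℝ) s) (mul_nonneg e3 (sub_nonneg.2 e2))
  have := mul_nonneg (Nat.cast_nonneg (α := ℝ) t) (mul_nonneg e4 (sub_nonneg.2 e1))
  linarith

lemma pow_le_exp {h : ℝ} (h1 : h ≤ 1) (s : ℕ) : (1 - h) ^ s ≤ Real.exp (-(h * s)) := by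
  have e1 : 1 - h ≤ Real.exp (-h) := by
    have := Real.add_one_le_exp (-h)
    linarith
  calc (1 - h) ^ s ≤ Real.exp (-h) ^ s := pow_le_pow_left₀ (by linarith) e1 s
    _ = Real.exp (-(h * s)) := by rw [← Real.exp_nat_mul]; congr 1; ring

/-- `y e^{-y} ≤ 3 y / (1 + y) - 3 (y/2) / (1 + y/2)`. -/
lemma ye_le {y : ℝ} (hy : 0 ≤ y) :
    y * Real.exp (-y) ≤ 3 * y / (1 + y) - 3 * (y / 2) / (1 + y / 2) := by
  have h1 : 1 + y + y ^ 2 / 2 ≤ Real.exp y := Real.quadratic_le_exp_of_nonneg hy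
  have h2 : 3 * y / (1 + y) - 3 * (y / 2) / (1 + y / 2) = 3 * y / ((1 + y) * (2 + y)) := by
    field_simp
    ring
  rw [h2, Real.exp_neg, ← div_eq_mul_inv, div_le_div_iff₀ (Real.exp_pos y) (by positivity)]
  have h3 : (1 + y) * (2 + y) ≤ 3 * Real.exp y := by nlinarith
  calc y * ((1 + y) * (2 + y)) ≤ y * (3 * Real.exp y) := mul_le_mul_of_nonneg_left h3 hy
    _ = 3 * y * Real.exp y := by ring

lemma sum_ye_le {x : ℝ} (hx : 0 ≤ x) (I : ℕ) :
    ∑ i ∈ range I, (x / 2 ^ i) * Real.exp (-(x / 2 ^ i)) ≤ 3 := by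
  have key : ∑ i ∈ range I, (x / 2 ^ i) * Real.exp (-(x / 2 ^ i)) ≤
      3 * x / (1 + x) - 3 * (x / 2 ^ I) / (1 + x / 2 ^ I) := by
    induction I with
    | zero => simp
    | succ I ih =>
      rw [Finset.sum_range_succ]
      have h1 := ye_le (y := x / 2 ^ I) (by positivity)
      have h2 : x / 2 ^ I / 2 = x / 2 ^ (I + 1) := by rw [pow_succ]; field_simp
      rw [h2] at h1
      linarith
  refine key.trans ?_
  have h1 : 0 ≤ 3 * (x / 2 ^ I) / (1 + x / 2 ^ I) := by positivity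
  have h2 : 3 * x / (1 + x) ≤ 3 := by
    rw [div_le_iff₀ (by linarith)]; linarith
  linarith

/-- The dyadic densities. -/
noncomputable def hd (M i : ℕ) : ℝ := 1 / (2 ^ i * M)

lemma hd_pos {M : ℕ} (hM : 1 ≤ M) (i : ℕ) : 0 < hd M i := by
  unfold hd
  have : (0 : ℝ) < M := by exact_mod_cast hM
  positivity

lemma hd_le_one {M : ℕ} (hM : 1 ≤ M) (i : ℕ) : hd M i ≤ 1 := by
  unfold hd
  have h1 : (1 : ℝ) ≤ M := by exact_mod_cast hM
  have h2 : (1 : ℝ) ≤ 2 ^ i := one_le_pow₀ (by norm_num)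
  rw [div_le_one (by positivity)]
  nlinarith

lemma hd_mul (M i : ℕ) (s : ℕ) : hd M i * s = (s / M : ℝ) / 2 ^ i := by
  unfold hd
  by_cases hM : (M : ℝ) = 0
  · simp [hM]
  · field_simp

lemma sum_half {M : ℕ} (hM : 1 ≤ M) (s t I : ℕ) :
    ∑ i ∈ range I, hd M i * (s * ((1 - hd M i) ^ s * (1 - (1 - hd M i) ^ t))) ≤ 3 := by
  refine le_trans ?_ (sum_ye_le (x := (s / M : ℝ)) (by positivity) I)
  apply Finset.sum_le_sum
  intro i _
  rw [← hd_mul]
  have h0 := hd_pos hM i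
  have h1 := hd_le_one hM i
  have e1 := pow_le_exp h1 s
  have e2 : 0 ≤ (1 - hd M i) ^ t := pow_nonneg (by linarith) _
  have e3 : 0 ≤ (1 - hd M i) ^ s := pow_nonneg (by linarith) _
  calc hd M i * (s * ((1 - hd M i) ^ s * (1 - (1 - hd M i) ^ t)))
      = (hd M i * s) * ((1 - hd M i) ^ s * (1 - (1 - hd M i) ^ t)) := by ring
    _ ≤ (hd M i * s) * ((1 - hd M i) ^ s * 1) := by
        apply mul_le_mul_of_nonneg_left _ (by positivity)
        apply mul_le_mul_of_nonneg_left _ e3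
        linarith
    _ ≤ (hd M i * s) * Real.exp (-(hd M i * s)) := by
        rw [mul_one]
        exact mul_le_mul_of_nonneg_left e1 (by positivity)

/-- The total change. -/
noncomputable def Dl (M I s t : ℕ) : ℝ := ∑ i ∈ range I, hd M i * dl (hd M i) s t

lemma Dl_nonneg {M : ℕ} (hM : 1 ≤ M) (I s t : ℕ) : 0 ≤ Dl M I s t := by
  apply Finset.sum_nonneg
  intro i _
  exact mul_nonneg (hd_pos hM i).le (dl_nonneg (hd_pos hM i).le (hd_le_one hM i) s t)

lemma Dl_comm (M I s t : ℕ) : Dl M I s t = Dl M I t s := by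
  unfold Dl
  apply Finset.sum_congr rfl
  intro i _
  rw [dl_comm]

lemma Dl_le {M : ℕ} (hM : 1 ≤ M) (I s t : ℕ) : Dl M I s t ≤ 6 := by
  have h1 := sum_half hM s t I
  have h2 := sum_half hM t s I
  unfold Dl
  have : ∀ i ∈ range I, hd M i * dl (hd M i) s t =
      hd M i * (s * ((1 - hd M i) ^ s * (1 - (1 - hd M i) ^ t))) +
      hd M i * (t * ((1 - hd M i) ^ t * (1 - (1 - hd M i) ^ s))) := by
    intro i _
    unfold dl
    ring
  rw [Finset.sum_congr rfl this, Finset.sum_add_distrib]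
  linarith

lemma one_sub_pow_le {h : ℝ} (h1 : h ≤ 1) (s : ℕ) : 1 - (1 - h) ^ s ≤ s * h := by
  have := one_add_mul_le_pow (a := -h) (by linarith) s
  have e : (1 : ℝ) + -h = 1 - h := by ring
  rw [e] at this
  linarith

lemma sum_hd_le {M : ℕ} (hM : 1 ≤ M) (I : ℕ) : ∑ i ∈ range I, hd M i ≤ 2 / M := by
  have hM0 : (0 : ℝ) < M := by exact_mod_cast hM
  have key : ∑ i ∈ range I, hd M i ≤ (2 - 2 / 2 ^ I) / M := by
    induction I with
    | zero => simp
    | succ I ih =>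
      rw [Finset.sum_range_succ]
      have e : (2 - 2 / 2 ^ (I + 1) : ℝ) / M = (2 - 2 / 2 ^ I) / M + hd M I := by
        unfold hd
        rw [pow_succ]
        field_simp
        ring
      rw [e]
      linarith
  refine key.trans ?_
  apply div_le_div_of_nonneg_right _ hM0.le
  have : (0 : ℝ) ≤ 2 / 2 ^ I := by positivity
  linarith

lemma dl_le_left {h : ℝ} (h0 : 0 ≤ h) (h1 : h ≤ 1) (s t : ℕ) : dl h s t ≤ 2 * s := by
  unfold dl
  have e1 := pow_le_one' h0 h1 s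
  have e3 : 0 ≤ (1 - h) ^ s := pow_nonneg (by linarith) _
  have e4 : 0 ≤ (1 - h) ^ t := pow_nonneg (by linarith) _
  have hs : (0 : ℝ) ≤ s := Nat.cast_nonneg s
  have ht : (0 : ℝ) ≤ t := Nat.cast_nonneg t
  have a1 : s * ((1 - h) ^ s * (1 - (1 - h) ^ t)) ≤ s * (1 * 1) := by
    apply mul_le_mul_of_nonneg_left _ hs
    apply mul_le_mul e1 (by linarith) _ (by norm_num)
    have := pow_le_one' h0 h1 t
    linarith
  have a2 : t * ((1 - h) ^ t * (1 - (1 - h) ^ s)) ≤ s := by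
    have b1 := pow_le_exp h1 t
    have b2 := one_sub_pow_le h1 s
    have b3 : (h * t) * Real.exp (-(h * t)) ≤ 1 := by
      have := Real.add_one_le_exp (h * t)
      rw [Real.exp_neg, ← div_eq_mul_inv, div_le_one (Real.exp_pos _)]
      linarith
    have b4 : 0 ≤ 1 - (1 - h) ^ s := by linarith
    calc t * ((1 - h) ^ t * (1 - (1 - h) ^ s))
        ≤ t * (Real.exp (-(h * t)) * (s * h)) := by
          apply mul_le_mul_of_nonneg_left _ ht
          exact mul_le_mul b1 b2 b4 (Real.exp_pos _).le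
      _ = s * ((h * t) * Real.exp (-(h * t))) := by ring
      _ ≤ s * 1 := mul_le_mul_of_nonneg_left b3 hs
      _ = s := mul_one _
  linarith

lemma Dl_le_left {M : ℕ} (hM : 1 ≤ M) (I s t : ℕ) : Dl M I s t ≤ 4 * s / M := by
  unfold Dl
  calc ∑ i ∈ range I, hd M i * dl (hd M i) s t ≤ ∑ i ∈ range I, hd M i * (2 * s) := by
        apply Finset.sum_le_sum
        intro i _
        exact mul_le_mul_of_nonneg_left (dl_le_left (hd_pos hM i).le (hd_le_one hM i) s t)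
          (hd_pos hM i).le
    _ = (∑ i ∈ range I, hd M i) * (2 * s) := by rw [Finset.sum_mul]
    _ ≤ 2 / M * (2 * s) := mul_le_mul_of_nonneg_right (sum_hd_le hM I) (by positivity)
    _ = 4 * s / M := by ring

lemma quarter_le {N : ℕ} (hN : 2 ≤ N) : (1 / 4 : ℝ) ≤ (1 - 1 / N) ^ N := by
  have hN0 : (2 : ℝ) ≤ N := by exact_mod_cast hN
  have hpos : (0 : ℝ) < N := by linarith
  have h1 : (1 / (N : ℝ)) ≤ 1 / 2 := by
    apply div_le_div_of_nonneg_left (by norm_num) (by norm_num) hN0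
  have h2 := one_add_mul_self_le_rpow_one_add (s := -(1 / (N : ℝ))) (by linarith)
    (p := (N : ℝ) / 2) (by linarith)
  have e : (1 : ℝ) + -(1 / N) = 1 - 1 / N := by ring
  rw [e] at h2
  have h3 : (1 / 2 : ℝ) ≤ (1 - 1 / (N : ℝ)) ^ ((N : ℝ) / 2) := by
    refine le_trans (le_of_eq ?_) h2
    field_simp
    norm_num
  have hb : (0 : ℝ) ≤ 1 - 1 / N := by linarith
  have h4 : ((1 - 1 / (N : ℝ)) ^ ((N : ℝ) / 2)) ^ 2 = (1 - 1 / N) ^ N := by
    rw [← Real.rpow_natCast, ← Real.rpow_mul hb, ← Real.rpow_natCast]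
    congr 1
    push_cast
    ring
  rw [← h4]
  nlinarith

lemma le_half {N : ℕ} (hN : 1 ≤ N) : (1 - 1 / (N : ℝ)) ^ N ≤ 1 / 2 := by
  have h1 := pow_le_exp (h := 1 / (N : ℝ)) (by
    rw [div_le_one (by exact_mod_cast hN)]; exact_mod_cast hN) N
  have hN0 : (N : ℝ) ≠ 0 := by
    have : (0 : ℝ) < N := by exact_mod_cast hN
    exact this.ne'
  have e : -(1 / (N : ℝ) * N) = -1 := by field_simp
  rw [e] at h1
  refine h1.trans ?_
  rw [Real.exp_neg]
  have : (2 : ℝ) ≤ Real.exp 1 := by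
    have := Real.add_one_le_exp (1 : ℝ)
    linarith
  rw [inv_eq_one_div]
  exact div_le_div_of_nonneg_left (by norm_num) (by norm_num) this

lemma dl_ge {N s t : ℕ} (hN : 2 ≤ N) (h1 : N ≤ s) (h2 : s ≤ 2 * N) (h3 : N ≤ t) :
    (1 / 32 : ℝ) ≤ 1 / N * dl (1 / N) s t := by
  have hN0 : (2 : ℝ) ≤ N := by exact_mod_cast hN
  have hpos : (0 : ℝ) < N := by linarith
  have hh1 : (1 / (N : ℝ)) ≤ 1 := by rw [div_le_one hpos]; linarith
  have hb0 : (0 : ℝ) ≤ 1 - 1 / N := by linarith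
  have hb1 : (1 : ℝ) - 1 / N ≤ 1 := by
    have : (0 : ℝ) < 1 / N := by positivity
    linarith
  have a1 : (1 / 16 : ℝ) ≤ (1 - 1 / N) ^ s := by
    calc (1 / 16 : ℝ) = (1 / 4) ^ 2 := by norm_num
      _ ≤ ((1 - 1 / (N : ℝ)) ^ N) ^ 2 := pow_le_pow_left₀ (by norm_num) (quarter_le hN) 2
      _ = (1 - 1 / (N : ℝ)) ^ (2 * N) := by rw [← pow_mul]; congr 1; ring
      _ ≤ (1 - 1 / N) ^ s := pow_le_pow_of_le_one hb0 hb1 h2
  have a2 : (1 - 1 / (N : ℝ)) ^ t ≤ 1 / 2 :=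
    (pow_le_pow_of_le_one hb0 hb1 h3).trans (le_half (by omega))
  have a3 : 0 ≤ t * ((1 - 1 / (N : ℝ)) ^ t * (1 - (1 - 1 / (N : ℝ)) ^ s)) := by
    have := pow_le_one₀ (n := s) hb0 hb1
    have h5 : 0 ≤ 1 - (1 - 1 / (N : ℝ)) ^ s := by linarith
    have h6 : 0 ≤ (1 - 1 / (N : ℝ)) ^ t := pow_nonneg hb0 _
    positivity
  have hs : (1 : ℝ) ≤ 1 / N * s := by
    rw [div_mul_eq_mul_div, one_mul, le_div_iff₀ hpos, one_mul]
    exact_mod_cast h1
  have a4 : (1 / 32 : ℝ) ≤ (1 - 1 / (N : ℝ)) ^ s * (1 - (1 - 1 / (N : ℝ)) ^ t) := by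
    calc (1 / 32 : ℝ) = 1 / 16 * (1 / 2) := by norm_num
      _ ≤ _ := mul_le_mul a1 (by linarith) (by norm_num) (pow_nonneg hb0 _)
  unfold dl
  calc (1 / 32 : ℝ) ≤ 1 * ((1 - 1 / (N : ℝ)) ^ s * (1 - (1 - 1 / (N : ℝ)) ^ t)) := by
        rw [one_mul]; exact a4
    _ ≤ (1 / N * s) * ((1 - 1 / (N : ℝ)) ^ s * (1 - (1 - 1 / (N : ℝ)) ^ t)) :=
        mul_le_mul_of_nonneg_right hs (by linarith)
    _ ≤ 1 / N * (s * ((1 - 1 / (N : ℝ)) ^ s * (1 - (1 - 1 / (N : ℝ)) ^ t)) +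
        t * ((1 - 1 / (N : ℝ)) ^ t * (1 - (1 - 1 / (N : ℝ)) ^ s))) := by
        have : 0 ≤ 1 / (N : ℝ) * (t * ((1 - 1 / (N : ℝ)) ^ t * (1 - (1 - 1 / (N : ℝ)) ^ s))) :=
          mul_nonneg (by positivity) a3
        linarith

/-- `1/32 ≤ Dl` when both clusters have size at least `M` and the smaller one has size less than
`2 ^ I * M`. -/
lemma Dl_ge {M I s t : ℕ} (hM : 2 ≤ M) (hs : M ≤ s) (ht : M ≤ t) (hst : s < 2 ^ I * M) :
    (1 / 32 : ℝ) ≤ Dl M I s t := by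
  wlog hle : s ≤ t generalizing s t
  · rw [Dl_comm]
    exact this ht hs (by omega) (by omega)
  -- the dyadic scale of `s`
  obtain ⟨i, hi, h1, h2⟩ : ∃ i, i < I ∧ 2 ^ i * M ≤ s ∧ s ≤ 2 * (2 ^ i * M) := by
    have hex : ∃ i, s < 2 ^ i * M := ⟨I, hst⟩
    classical
    set k := Nat.find hex with hk
    have hk1 : s < 2 ^ k * M := Nat.find_spec hex
    have hk0 : k ≠ 0 := by
      intro h0
      rw [h0] at hk1
      simp at hk1
      omega
    have hkI : k ≤ I := Nat.find_min' hex hst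
    have hk2 : ¬ s < 2 ^ (k - 1) * M := Nat.find_min hex (by omega)
    refine ⟨k - 1, by omega, by omega, ?_⟩
    have : 2 ^ k = 2 * 2 ^ (k - 1) := by
      rw [← pow_succ']
      congr 1
      omega
    rw [this] at hk1
    nlinarith
  have hM1 : 1 ≤ M := by omega
  have h3 : hd M i * dl (hd M i) s t ≤ Dl M I s t := by
    unfold Dl
    apply Finset.single_le_sum (f := fun i => hd M i * dl (hd M i) s t) _ (Finset.mem_range.2 hi)
    intro j _
    exact mul_nonneg (hd_pos hM1 j).le (dl_nonneg (hd_pos hM1 j).le (hd_le_one hM1 j) s t)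
  refine le_trans ?_ h3
  have h4 := dl_ge (N := 2 ^ i * M) (s := s) (t := t) (by
    have : 1 ≤ 2 ^ i := Nat.one_le_two_pow
    nlinarith) h1 h2 (h1.trans hle)
  have e : (1 / ((2 ^ i * M : ℕ) : ℝ)) = hd M i := by
    unfold hd; push_cast; rfl
  rw [e] at h4
  exact h4

lemma sum_sqrt_hd_le {M : ℕ} (hM : 1 ≤ M) (I : ℕ) :
    ∑ i ∈ range I, Real.sqrt (hd M i) ≤ 4 / Real.sqrt M := by
  have hM0 : (0 : ℝ) < M := by exact_mod_cast hM
  have hsM : 0 < Real.sqrt M := Real.sqrt_pos.2 hM0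
  set q := Real.sqrt (1 / 2) with hq
  have hq0 : 0 ≤ q := Real.sqrt_nonneg _
  have hq2 : q ^ 2 = 1 / 2 := by rw [hq]; exact Real.sq_sqrt (by norm_num)
  have hq1 : q ≤ 3 / 4 := by nlinarith
  have key : ∀ i, Real.sqrt (hd M i) = q ^ i / Real.sqrt M := by
    intro i
    have h1 : hd M i = (q ^ i / Real.sqrt M) ^ 2 := by
      rw [div_pow, Real.sq_sqrt hM0.le, ← pow_mul, mul_comm i 2, pow_mul, hq2, one_div_pow]
      unfold hd
      rw [div_div]
    rw [h1, Real.sqrt_sq (by positivity)]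
  have hgeom : ∀ I : ℕ, ∑ i ∈ range I, q ^ i ≤ 4 := by
    intro I
    have h1 : ∑ i ∈ range I, q ^ i ≤ ∑ i ∈ range I, (3 / 4 : ℝ) ^ i :=
      Finset.sum_le_sum fun i _ => pow_le_pow_left₀ hq0 hq1 i
    have h2 : ∀ I : ℕ, ∑ i ∈ range I, (3 / 4 : ℝ) ^ i = 4 - 4 * (3 / 4) ^ I := by
      intro I
      induction I with
      | zero => simp
      | succ I ih => rw [Finset.sum_range_succ, ih, pow_succ]; ring
    rw [h2] at h1
    have : (0 : ℝ) ≤ 4 * (3 / 4) ^ I := by positivity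
    linarith
  rw [Finset.sum_congr rfl fun i _ => key i, ← Finset.sum_div]
  exact div_le_div_of_nonneg_right (hgeom I) hsM.le

end Vale.Agent.P151.H800
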